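import Mathlib

/-!
P212, ring part: in the group algebra of a finite group of 5-power order there is a chain of
subspaces from the augmentation ideal down to zero with one-dimensional steps, stable under both
multiplications, the augmentation ideal moving every term into the next one.
-/

set_option linter.style.haveILetI false

namespace VP212.Alg.HR

open MonoidAlgebra

variable {G : Type} [Group G]


/-- Stable under both translations. -/
def Stable (S : Submodule (ZMod 5) (MonoidAlgebra (ZMod 5) G)) : Prop :=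
  ∀ (g : G), ∀ r ∈ S, of (ZMod 5) G g * r ∈ S ∧ r * of (ZMod 5) G g ∈ S

theorem Stable.mul_mem {S : Submodule (ZMod 5) (MonoidAlgebra (ZMod 5) G)} (hS : Stable S)
    (x : MonoidAlgebra (ZMod 5) G) {r : MonoidAlgebra (ZMod 5) G} (hr : r ∈ S) :
    x * r ∈ S ∧ r * x ∈ S := by
  induction x using MonoidAlgebra.induction_on with
  | of g => exact hS g r hr
  | add a b ha hb => exact ⟨by rw [add_mul]; exact S.add_mem ha.1 hb.1,
      by rw [mul_add]; exact S.add_mem ha.2 hb.2⟩
  | smul c a ha => exact ⟨by rw [smul_mul_assoc]; exact S.smul_mem c ha.1,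
      by rw [mul_smul_comm]; exact S.smul_mem c ha.2⟩

/-- A vector fixed modulo a stable proper subspace. -/
theorem exists_fixed [Finite G] (hG : IsPGroup 5 G)
    {S : Submodule (ZMod 5) (MonoidAlgebra (ZMod 5) G)} (hS : Stable S) (hne : S ≠ ⊤) :
    ∃ z, z ∉ S ∧ ∀ g : G, of (ZMod 5) G g * z - z ∈ S ∧ z * of (ZMod 5) G g - z ∈ S := by
  haveI : Fact (Nat.Prime 5) := ⟨by norm_num⟩
  haveI : Finite (MonoidAlgebra (ZMod 5) G) :=
    Finite.of_injective (fun r : MonoidAlgebra (ZMod 5) G => (r.coeff : G → ZMod 5))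
      (DFunLike.coe_injective.comp MonoidAlgebra.coeff_injective)
  let mL : G × G → MonoidAlgebra (ZMod 5) G →ₗ[ZMod 5] MonoidAlgebra (ZMod 5) G := fun p =>
    (LinearMap.mulLeft (ZMod 5) (of (ZMod 5) G p.1)).comp
      (LinearMap.mulRight (ZMod 5) (of (ZMod 5) G p.2⁻¹))
  have hmL : ∀ p, S ≤ S.comap (mL p) := fun p r hr => by
    simp only [Submodule.mem_comap, mL, LinearMap.comp_apply, LinearMap.mulLeft_apply,
      LinearMap.mulRight_apply]
    exact (hS _ _ (hS _ _ hr).2).1
  letI : SMul (G × G) (MonoidAlgebra (ZMod 5) G ⧸ S) := ⟨fun p v => S.mapQ S (mL p) (hmL p) v⟩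
  have hsmul : ∀ (p : G × G) (r : MonoidAlgebra (ZMod 5) G), p • (Submodule.Quotient.mk r : MonoidAlgebra (ZMod 5) G ⧸ S) =
      Submodule.Quotient.mk (of (ZMod 5) G p.1 * (r * of (ZMod 5) G p.2⁻¹)) := fun p r => rfl
  letI : MulAction (G × G) (MonoidAlgebra (ZMod 5) G ⧸ S) :=
    { one_smul := fun v => by
        obtain ⟨r, rfl⟩ := Submodule.Quotient.mk_surjective S v
        rw [hsmul]
        simp only [Prod.fst_one, Prod.snd_one, inv_one, map_one, one_mul, mul_one]
      mul_smul := fun p q v => by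
        obtain ⟨r, rfl⟩ := Submodule.Quotient.mk_surjective S v
        rw [hsmul, hsmul, hsmul]
        simp only [Prod.fst_mul, Prod.snd_mul, mul_inv_rev, map_mul, mul_assoc] }
  obtain ⟨k, hk⟩ := IsPGroup.iff_card.1 hG
  have hGG : IsPGroup 5 (G × G) :=
    IsPGroup.of_card (n := k + k) (by rw [Nat.card_prod, hk, pow_add])
  haveI : Nontrivial (MonoidAlgebra (ZMod 5) G ⧸ S) := by
    rw [Submodule.Quotient.nontrivial_iff]; exact hne
  haveI : Finite (MonoidAlgebra (ZMod 5) G ⧸ S) :=
    Finite.of_surjective _ (Submodule.Quotient.mk_surjective S)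
  have hdvd : 5 ∣ Nat.card (MonoidAlgebra (ZMod 5) G ⧸ S) := by
    rw [Module.natCard_eq_pow_finrank (K := ZMod 5), Nat.card_zmod]
    exact dvd_pow_self 5 Module.finrank_pos.ne'
  have h0 : (0 : MonoidAlgebra (ZMod 5) G ⧸ S) ∈ MulAction.fixedPoints (G × G) _ := fun p => by
    rw [← Submodule.Quotient.mk_zero, hsmul]
    simp
  obtain ⟨v, hv, hv0⟩ := hGG.exists_fixed_point_of_prime_dvd_card_of_fixed_point _ hdvd h0
  obtain ⟨z, rfl⟩ := Submodule.Quotient.mk_surjective S v
  refine ⟨z, fun h => hv0 ((Submodule.Quotient.mk_eq_zero S).2 h).symm, fun g => ⟨?_, ?_⟩⟩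
  · have := hv (g, 1)
    rw [hsmul] at this
    simp only [inv_one, map_one, mul_one] at this
    exact (Submodule.Quotient.eq S).1 this
  · have := hv (1, g⁻¹)
    rw [hsmul] at this
    simp only [inv_inv, map_one, one_mul] at this
    exact (Submodule.Quotient.eq S).1 this

variable [Finite G]

open Classical in
/-- The fixed vector chosen above. -/
noncomputable def fixVec (hG : IsPGroup 5 G) (S : Submodule (ZMod 5) (MonoidAlgebra (ZMod 5) G)) :
    MonoidAlgebra (ZMod 5) G :=
  if h : Stable S ∧ S ≠ ⊤ then Classical.choose (exists_fixed hG h.1 h.2) else 0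

theorem fixVec_spec (hG : IsPGroup 5 G) {S : Submodule (ZMod 5) (MonoidAlgebra (ZMod 5) G)}
    (hS : Stable S) (hne : S ≠ ⊤) :
    fixVec hG S ∉ S ∧ ∀ g : G, of (ZMod 5) G g * fixVec hG S - fixVec hG S ∈ S ∧
      fixVec hG S * of (ZMod 5) G g - fixVec hG S ∈ S := by
  rw [fixVec, dif_pos ⟨hS, hne⟩]
  exact Classical.choose_spec (exists_fixed hG hS hne)

theorem mul_fixVec (hG : IsPGroup 5 G) {S : Submodule (ZMod 5) (MonoidAlgebra (ZMod 5) G)}
    (hS : Stable S) (hne : S ≠ ⊤) (ε : MonoidAlgebra (ZMod 5) G →ₐ[ZMod 5] ZMod 5)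
    (hε : ∀ g, ε (of (ZMod 5) G g) = 1) (x : MonoidAlgebra (ZMod 5) G) :
    x * fixVec hG S - ε x • fixVec hG S ∈ S ∧ fixVec hG S * x - ε x • fixVec hG S ∈ S := by
  induction x using MonoidAlgebra.induction_on with
  | of g =>
    rw [hε, one_smul]
    exact (fixVec_spec hG hS hne).2 g
  | add a b ha hb =>
    rw [map_add, add_smul]
    constructor
    · have := S.add_mem ha.1 hb.1
      rwa [add_mul, add_sub_add_comm]
    · have := S.add_mem ha.2 hb.2
      rwa [mul_add, add_sub_add_comm]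
  | smul c a ha =>
    rw [map_smul, smul_eq_mul, mul_smul, smul_mul_assoc, mul_smul_comm, ← smul_sub, ← smul_sub]
    exact ⟨S.smul_mem c ha.1, S.smul_mem c ha.2⟩

/-- One step upwards. -/
noncomputable def grow (hG : IsPGroup 5 G) (S : Submodule (ZMod 5) (MonoidAlgebra (ZMod 5) G)) :
    Submodule (ZMod 5) (MonoidAlgebra (ZMod 5) G) :=
  S ⊔ Submodule.span (ZMod 5) {fixVec hG S}

theorem stable_grow (hG : IsPGroup 5 G) {S : Submodule (ZMod 5) (MonoidAlgebra (ZMod 5) G)}
    (hS : Stable S) : Stable (grow hG S) := by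
  intro g r hr
  by_cases hne : S = ⊤
  · subst hne
    simp [grow]
  obtain ⟨s, hs, t, ht, rfl⟩ := Submodule.mem_sup.1 hr
  obtain ⟨c, rfl⟩ := Submodule.mem_span_singleton.1 ht
  have hz := (fixVec_spec hG hS hne).2 g
  constructor
  · refine Submodule.mem_sup.2 ⟨of (ZMod 5) G g * s + c • (of (ZMod 5) G g * fixVec hG S -
      fixVec hG S), S.add_mem (hS g s hs).1 (S.smul_mem c hz.1), c • fixVec hG S, ht, ?_⟩
    rw [mul_add, mul_smul_comm, smul_sub]
    abel
  · refine Submodule.mem_sup.2 ⟨s * of (ZMod 5) G g + c • (fixVec hG S * of (ZMod 5) G g -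
      fixVec hG S), S.add_mem (hS g s hs).2 (S.smul_mem c hz.2), c • fixVec hG S, ht, ?_⟩
    rw [add_mul, smul_mul_assoc, smul_sub]
    abel

/-- The ascending chain. -/
noncomputable def asc (hG : IsPGroup 5 G) : ℕ → Submodule (ZMod 5) (MonoidAlgebra (ZMod 5) G)
  | 0 => ⊥
  | k + 1 => grow hG (asc hG k)

theorem stable_asc (hG : IsPGroup 5 G) : ∀ k, Stable (asc hG k)
  | 0 => fun g r hr => by simp [asc] at hr ⊢; simp [hr]
  | k + 1 => stable_grow hG (stable_asc hG k)

theorem exists_asc_top (hG : IsPGroup 5 G) : ∃ d, asc hG d = ⊤ := by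
  haveI : Fact (Nat.Prime 5) := ⟨by norm_num⟩
  haveI : Finite (MonoidAlgebra (ZMod 5) G) :=
    Finite.of_injective (fun r : MonoidAlgebra (ZMod 5) G => (r.coeff : G → ZMod 5))
      (DFunLike.coe_injective.comp MonoidAlgebra.coeff_injective)
  by_contra hno
  push Not at hno
  have hlt : StrictMono (asc hG) := strictMono_nat_of_lt_succ fun k => by
    refine lt_of_le_of_ne le_sup_left fun h => (fixVec_spec hG (stable_asc hG k) (hno k)).1 ?_
    exact h.ge (Submodule.mem_sup_right (Submodule.mem_span_singleton_self _))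
  haveI : Finite (Submodule (ZMod 5) (MonoidAlgebra (ZMod 5) G)) :=
    Finite.of_injective _ SetLike.coe_injective
  exact not_injective_infinite_finite _ hlt.injective

/-- The chain. -/
theorem exists_chain (hG : IsPGroup 5 G) (ε : MonoidAlgebra (ZMod 5) G →ₐ[ZMod 5] ZMod 5)
    (hε : ∀ g, ε (of (ZMod 5) G g) = 1) :
    ∃ (len : ℕ) (I : ℕ → Submodule (ZMod 5) (MonoidAlgebra (ZMod 5) G))
      (j : ℕ → MonoidAlgebra (ZMod 5) G),
      1 ≤ len ∧ I 0 = ⊤ ∧ (∀ r, r ∈ I 1 ↔ ε r = 0) ∧ (∀ i, I (i + 1) ≤ I i) ∧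
      (∀ i, len ≤ i → I i = ⊥) ∧ (∀ i, j i ∈ I i) ∧
      (∀ i, ∀ r ∈ I i, ∃ t : ZMod 5, r - t • j i ∈ I (i + 1)) ∧
      ∀ i, ∀ r ∈ I i, ∀ m, ε m = 0 → m * r ∈ I (i + 1) ∧ r * m ∈ I (i + 1) := by
  classical
  haveI : Fact (Nat.Prime 5) := ⟨by norm_num⟩
  have hex := exists_asc_top hG
  let d := Nat.find hex
  have hd : asc hG d = ⊤ := Nat.find_spec hex
  have hlt : ∀ k, k < d → asc hG k ≠ ⊤ := fun k hk => Nat.find_min hex hk
  have hd1 : 1 ≤ d := by
    by_contra h
    have h0 : d = 0 := by omega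
    rw [h0] at hd
    exact bot_ne_top hd
  have hsucc : ∀ i, i < d → asc hG (d - i) = grow hG (asc hG (d - i - 1)) := fun i hi => by
    conv_lhs => rw [show d - i = (d - i - 1) + 1 by omega]
    rfl
  have hsub : ∀ i, d - (i + 1) = d - i - 1 := fun i => by omega
  refine ⟨d, fun i => asc hG (d - i),
    fun i => if i < d then fixVec hG (asc hG (d - i - 1)) else 0, hd1, hd, ?_, ?_, ?_, ?_, ?_, ?_⟩
  · show ∀ r, r ∈ asc hG (d - 1) ↔ ε r = 0
    set S := asc hG (d - 1) with hSdef
    have hS : Stable S := stable_asc hG _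
    have hne : S ≠ ⊤ := hlt _ (by omega)
    have htop : grow hG S = ⊤ := by
      rw [hSdef, ← hd]
      conv_rhs => rw [show d = (d - 1) + 1 by omega]
      rfl
    have h1 : (1 : MonoidAlgebra (ZMod 5) G) ∉ S := fun h => hne (eq_top_iff.2 fun x _ => by
      simpa using (hS.mul_mem x h).1)
    have hg : ∀ g : G, of (ZMod 5) G g - 1 ∈ S := fun g => by
      obtain ⟨s, hs, t, ht, h⟩ := Submodule.mem_sup.1
        (show (1 : MonoidAlgebra (ZMod 5) G) ∈ grow hG S by rw [htop]; trivial)
      obtain ⟨c, rfl⟩ := Submodule.mem_span_singleton.1 ht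
      have hz := ((fixVec_spec hG hS hne).2 g).1
      have e : of (ZMod 5) G g - 1 = (of (ZMod 5) G g * s - s) +
          c • (of (ZMod 5) G g * fixVec hG S - fixVec hG S) := by
        conv_lhs => rw [← mul_one (of (ZMod 5) G g), ← h]
        rw [mul_add, mul_smul_comm, smul_sub]
        abel
      rw [e]
      exact S.add_mem (S.sub_mem (hS g s hs).1 hs) (S.smul_mem c hz)
    have hall : ∀ x, x - ε x • (1 : MonoidAlgebra (ZMod 5) G) ∈ S := fun x => by
      induction x using MonoidAlgebra.induction_on with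
      | of g => rw [hε, one_smul]; exact hg g
      | add a b ha hb => rw [map_add, add_smul, add_sub_add_comm]; exact S.add_mem ha hb
      | smul c a ha => rw [map_smul, smul_eq_mul, mul_smul, ← smul_sub]; exact S.smul_mem c ha
    intro r
    constructor
    · intro hr
      by_contra h0
      haveI : Fact (Nat.Prime 5) := ⟨by norm_num⟩
      apply h1
      have := S.sub_mem hr (hall r)
      rw [sub_sub_cancel] at this
      simpa [smul_smul, inv_mul_cancel₀ h0] using S.smul_mem (ε r)⁻¹ this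
    · intro h0
      simpa [h0] using hall r
  · intro i
    show asc hG (d - (i + 1)) ≤ asc hG (d - i)
    rcases Nat.lt_or_ge i d with hi | hi
    · rw [hsucc i hi, hsub]; exact le_sup_left
    · rw [show d - (i + 1) = 0 by omega, show d - i = 0 by omega]
  · intro i hi
    show asc hG (d - i) = ⊥
    rw [show d - i = 0 by omega]; rfl
  · intro i
    show (if i < d then _ else 0) ∈ asc hG (d - i)
    split
    · next hi =>
      rw [hsucc i hi]
      exact Submodule.mem_sup_right (Submodule.mem_span_singleton_self _)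
    · exact Submodule.zero_mem _
  · intro i r hr
    show ∃ t : ZMod 5, r - t • (if i < d then _ else 0) ∈ asc hG (d - (i + 1))
    rcases Nat.lt_or_ge i d with hi | hi
    · rw [if_pos hi, hsub]
      replace hr : r ∈ asc hG (d - i) := hr
      rw [hsucc i hi] at hr
      obtain ⟨s, hs, t, ht, rfl⟩ := Submodule.mem_sup.1 hr
      obtain ⟨c, rfl⟩ := Submodule.mem_span_singleton.1 ht
      exact ⟨c, by simpa using hs⟩
    · refine ⟨0, ?_⟩
      replace hr : r ∈ asc hG (d - i) := hr
      rw [show d - i = 0 by omega] at hr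
      rw [show d - (i + 1) = 0 by omega]
      simpa using hr
  · intro i r hr m hm
    show m * r ∈ asc hG (d - (i + 1)) ∧ r * m ∈ asc hG (d - (i + 1))
    rcases Nat.lt_or_ge i d with hi | hi
    · rw [hsub]
      replace hr : r ∈ asc hG (d - i) := hr
      rw [hsucc i hi] at hr
      obtain ⟨s, hs, t, ht, rfl⟩ := Submodule.mem_sup.1 hr
      obtain ⟨c, rfl⟩ := Submodule.mem_span_singleton.1 ht
      have hS : Stable (asc hG (d - i - 1)) := stable_asc hG _
      have hz := mul_fixVec hG hS (hlt _ (by omega)) ε hε m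
      rw [hm, zero_smul, sub_zero, sub_zero] at hz
      rw [mul_add, add_mul, mul_smul_comm, smul_mul_assoc]
      exact ⟨Submodule.add_mem _ (hS.mul_mem m hs).1 (Submodule.smul_mem _ c hz.1),
        Submodule.add_mem _ (hS.mul_mem m hs).2 (Submodule.smul_mem _ c hz.2)⟩
    · replace hr : r ∈ asc hG (d - i) := hr
      rw [show d - i = 0 by omega] at hr
      obtain rfl : r = 0 := by simpa [asc] using hr
      simp

end VP212.Alg.HR
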