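import Mathlib

/-!
P212, ring part: the Heisenberg group over a commutative ring and its group algebras over the
field with five elements.
-/

namespace VP212.Alg.HR

/-- The Heisenberg group over a commutative ring. -/
@[ext] structure Heis (A : Type) where
  a : A
  b : A
  c : A
deriving DecidableEq

namespace Heis

variable {A B : Type} [CommRing A] [CommRing B]

instance : Group (Heis A) where
  mul g h := ⟨g.a + h.a, g.b + h.b, g.c + h.c + g.a * h.b⟩
  one := ⟨0, 0, 0⟩
  inv g := ⟨-g.a, -g.b, -g.c + g.a * g.b⟩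
  mul_assoc g h k := by
    ext
    · exact add_assoc _ _ _
    · exact add_assoc _ _ _
    · show g.c + h.c + g.a * h.b + k.c + (g.a + h.a) * k.b =
        g.c + (h.c + k.c + h.a * k.b) + g.a * (h.b + k.b)
      ring
  one_mul g := by
    ext
    · exact zero_add _
    · exact zero_add _
    · show 0 + g.c + 0 * g.b = g.c
      ring
  mul_one g := by
    ext
    · exact add_zero _
    · exact add_zero _
    · show g.c + 0 + g.a * 0 = g.c
      ring
  inv_mul_cancel g := by
    ext
    · exact neg_add_cancel _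
    · exact neg_add_cancel _
    · show -g.c + g.a * g.b + g.c + -g.a * g.b = 0
      ring

@[simp] theorem mul_a (g h : Heis A) : (g * h).a = g.a + h.a := rfl
@[simp] theorem mul_b (g h : Heis A) : (g * h).b = g.b + h.b := rfl
@[simp] theorem mul_c (g h : Heis A) : (g * h).c = g.c + h.c + g.a * h.b := rfl
@[simp] theorem one_a : (1 : Heis A).a = 0 := rfl
@[simp] theorem one_b : (1 : Heis A).b = 0 := rfl
@[simp] theorem one_c : (1 : Heis A).c = 0 := rfl

/-- Functoriality in the ring. -/
def map (f : A →+* B) : Heis A →* Heis B where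
  toFun g := ⟨f g.a, f g.b, f g.c⟩
  map_one' := by ext <;> simp
  map_mul' g h := by ext <;> simp

@[simp] theorem map_apply (f : A →+* B) (g : Heis A) : map f g = ⟨f g.a, f g.b, f g.c⟩ := rfl

/-- The coordinates. -/
def equivTriple : Heis A ≃ A × A × A where
  toFun g := (g.a, g.b, g.c)
  invFun t := ⟨t.1, t.2.1, t.2.2⟩

instance [Finite A] : Finite (Heis A) := Finite.of_equiv _ equivTriple.symm

end Heis

/-- The field of coefficients. -/
abbrev F5 : Type := ZMod 5

/-- The integral group algebra. -/
abbrev RZ : Type := MonoidAlgebra F5 (Heis ℤ)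

/-- The finite group. -/
abbrev HN (n : ℕ) : Type := Heis (ZMod (5 ^ (4 * n)))

/-- The finite group algebra. -/
abbrev Rn (n : ℕ) : Type := MonoidAlgebra F5 (HN n)

/-- Reduction of the group. -/
def redH (n : ℕ) : Heis ℤ →* HN n := Heis.map (Int.castRingHom _)

/-- Reduction of the group algebra. -/
noncomputable def toRn (n : ℕ) : RZ →+* Rn n := MonoidAlgebra.mapDomainRingHom F5 (redH n)

/-- The augmentation. -/
noncomputable def aug (G : Type) [Monoid G] : MonoidAlgebra F5 G →ₐ[F5] F5 :=
  MonoidAlgebra.lift F5 F5 G (1 : G →* F5)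

@[simp] theorem aug_of {G : Type} [Monoid G] (g : G) :
    aug G (MonoidAlgebra.of F5 G g) = 1 := by
  simp [aug]

/-- The generators. -/
def gX : Heis ℤ := ⟨1, 0, 0⟩

/-- The second generator. -/
def gY : Heis ℤ := ⟨0, 1, 0⟩

/-- A group element as a monomial. -/
noncomputable def monZ : Heis ℤ →* RZ := MonoidAlgebra.of F5 (Heis ℤ)

/-- The image of a group element in the finite group algebra. -/
noncomputable def monU (n : ℕ) : Heis ℤ →* (Rn n)ˣ :=
  ((MonoidAlgebra.of F5 (HN n)).comp (redH n)).toHomUnits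

theorem monU_val (n : ℕ) (h : Heis ℤ) :
    (monU n h : Rn n) = MonoidAlgebra.of F5 (HN n) (redH n h) := rfl

theorem toRn_monZ (n : ℕ) (h : Heis ℤ) : toRn n (monZ h) = (monU n h : Rn n) := by
  simp [toRn, monZ, monU_val, MonoidAlgebra.mapDomainRingHom]

/-- Small support. -/
def Short (K : ℕ) (r : RZ) : Prop :=
  ∀ h ∈ r.coeff.support, |h.a| ≤ K ∧ |h.b| ≤ K ∧ |h.c| ≤ (K : ℤ) ^ 2

instance (n : ℕ) : Finite (Rn n) :=
  Finite.of_injective (fun r : Rn n => (r.coeff : HN n → F5))
    (DFunLike.coe_injective.comp MonoidAlgebra.coeff_injective)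

end VP212.Alg.HR
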