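import Vale.Agent.P212.Alg.Data
import Vale.Agent.P212.Alg.Ring.Chain
import Vale.Agent.P212.Alg.Ring.Defs

/-!
P212, ring part: the ring data of a component.
-/

set_option linter.style.haveILetI false

namespace VP212.Alg.HR

open MonoidAlgebra

theorem redH_surjective (n : ℕ) : Function.Surjective (redH n) := fun g => by
  obtain ⟨a, ha⟩ := ZMod.intCast_surjective g.a
  obtain ⟨b, hb⟩ := ZMod.intCast_surjective g.b
  obtain ⟨c, hc⟩ := ZMod.intCast_surjective g.c
  exact ⟨⟨a, b, c⟩, by ext <;> simpa [redH]⟩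

theorem isPGroup_HN (n : ℕ) : IsPGroup 5 (HN n) :=
  IsPGroup.of_card (n := 4 * n + (4 * n + 4 * n)) (by
    rw [Nat.card_congr Heis.equivTriple, Nat.card_prod, Nat.card_prod, Nat.card_zmod, pow_add,
      pow_add])

theorem isUnit_of_chain {n : ℕ} {len : ℕ} {I : ℕ → Submodule F5 (Rn n)}
    (h1 : ∀ r, r ∈ I 1 ↔ aug (HN n) r = 0) (htop : ∀ i, len ≤ i → I i = ⊥)
    (hmul : ∀ i, ∀ r ∈ I i, ∀ m, aug (HN n) m = 0 → m * r ∈ I (i + 1) ∧ r * m ∈ I (i + 1))
    {r : Rn n} (hr : aug (HN n) r ≠ 0) : IsUnit r := by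
  haveI : Fact (Nat.Prime 5) := ⟨by norm_num⟩
  set t := aug (HN n) r with ht
  let m : Rn n := t⁻¹ • r - 1
  have hm : aug (HN n) m = 0 := by
    simp only [m, map_sub, map_smul, map_one, smul_eq_mul, ← ht, inv_mul_cancel₀ hr, sub_self]
  have hpow : ∀ i, m ^ (i + 1) ∈ I (i + 1) := by
    intro i
    induction i with
    | zero => rw [zero_add, pow_one]; exact (h1 m).2 hm
    | succ i ih => rw [pow_succ']; exact (hmul _ _ ih m hm).1
  have hnil : IsNilpotent m := ⟨len + 1, by
    simpa [htop (len + 1) (by omega)] using hpow len⟩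
  have hu : IsUnit (algebraMap F5 (Rn n) t * (1 + m)) :=
    ((isUnit_iff_ne_zero.2 hr).map (algebraMap F5 (Rn n))).mul hnil.isUnit_one_add
  have e : algebraMap F5 (Rn n) t * (1 + m) = r := by
    rw [← Algebra.smul_def, show 1 + m = t⁻¹ • r by simp [m], smul_smul, mul_inv_cancel₀ hr,
      one_smul]
  rwa [e] at hu

variable (n : ℕ)

/-- The moves of the parameters. -/
abbrev Step : (Rn n)ˣ × Rn n → (Rn n)ˣ × Rn n → Prop := fun P P' =>
  (∃ g ∈ [monU n gX, (monU n gX)⁻¹, monU n gY, (monU n gY)⁻¹], P' = (P.1 * g, P.2)) ∨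
    P' = (P.1, P.2 + P.1) ∨ P' = (P.1, P.2 - P.1)

/-- Group elements by which the first parameter can be moved. -/
def Walk (h : Heis ℤ) : Prop :=
  ∀ (q : (Rn n)ˣ) (s : Rn n), Relation.ReflTransGen (Step n) (q, s) (q * monU n h, s)

theorem Walk.mul {g h : Heis ℤ} (hg : Walk n g) (hh : Walk n h) : Walk n (g * h) := fun q s => by
  rw [map_mul, ← mul_assoc]
  exact (hg q s).trans (hh _ s)

theorem walk_gen {g : Heis ℤ}
    (hg : monU n g ∈ [monU n gX, (monU n gX)⁻¹, monU n gY, (monU n gY)⁻¹]) : Walk n g :=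
  fun _ _ => Relation.ReflTransGen.single (Or.inl ⟨_, hg, rfl⟩)

theorem walk_all (h : Heis ℤ) : Walk n h := by
  have h1 : Walk n 1 := fun q s => by rw [map_one, mul_one]
  have hx : Walk n gX := walk_gen n (by simp)
  have hx' : Walk n gX⁻¹ := walk_gen n (by rw [map_inv]; simp)
  have hy : Walk n gY := walk_gen n (by simp)
  have hy' : Walk n gY⁻¹ := walk_gen n (by rw [map_inv]; simp)
  have ha : ∀ i : ℤ, Walk n (⟨i, 0, 0⟩ : Heis ℤ) := by
    intro i
    induction i using Int.induction_on with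
    | zero => exact h1
    | succ k ih =>
      have e : (⟨(k : ℤ) + 1, 0, 0⟩ : Heis ℤ) = ⟨(k : ℤ), 0, 0⟩ * gX := by
        ext <;> simp [gX]
      rw [e]; exact ih.mul n hx
    | pred k ih =>
      have e : (⟨-(k : ℤ) - 1, 0, 0⟩ : Heis ℤ) = ⟨-(k : ℤ), 0, 0⟩ * gX⁻¹ := by
        ext
        · show _ = -(k : ℤ) + -(1 : ℤ); ring
        · show _ = (0 : ℤ) + -(0 : ℤ); ring
        · show _ = (0 : ℤ) + (-(0 : ℤ) + 1 * 0) + -(k : ℤ) * -(0 : ℤ); ring
      rw [e]; exact ih.mul n hx'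
  have hb : ∀ i : ℤ, Walk n (⟨0, i, 0⟩ : Heis ℤ) := by
    intro i
    induction i using Int.induction_on with
    | zero => exact h1
    | succ k ih =>
      have e : (⟨0, (k : ℤ) + 1, 0⟩ : Heis ℤ) = ⟨0, (k : ℤ), 0⟩ * gY := by
        ext <;> simp [gY]
      rw [e]; exact ih.mul n hy
    | pred k ih =>
      have e : (⟨0, -(k : ℤ) - 1, 0⟩ : Heis ℤ) = ⟨0, -(k : ℤ), 0⟩ * gY⁻¹ := by
        ext
        · show _ = (0 : ℤ) + -(0 : ℤ); ring
        · show _ = -(k : ℤ) + -(1 : ℤ); ring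
        · show _ = (0 : ℤ) + (-(0 : ℤ) + 0 * 1) + (0 : ℤ) * -(1 : ℤ); ring
      rw [e]; exact ih.mul n hy'
  have e : h = (⟨1, 0, 0⟩ * ⟨0, h.c, 0⟩ * ⟨-1, 0, 0⟩ * ⟨0, -h.c, 0⟩) *
      (⟨0, h.b, 0⟩ * ⟨h.a, 0, 0⟩) := by
    ext <;> simp
  rw [e]
  exact (((((ha 1).mul n (hb h.c)).mul n (ha (-1))).mul n (hb (-h.c))).mul n
    ((hb h.b).mul n (ha h.a)))

theorem reach_all (r : Rn n) : Relation.ReflTransGen (Step n) (1, r) (1, 0) := by
  have hadd : ∀ (m : ℕ) (q : (Rn n)ˣ) (s : Rn n),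
      Relation.ReflTransGen (Step n) (q, s) (q, s + m • (q : Rn n)) := by
    intro m q
    induction m with
    | zero => intro s; rw [zero_smul, add_zero]
    | succ m ih =>
      intro s
      refine (ih s).tail ?_
      right; left
      rw [succ_nsmul, add_assoc]
  suffices h : ∀ (x : Rn n) (c : F5) (s : Rn n),
      Relation.ReflTransGen (Step n) (1, s) (1, s + c • x) by
    simpa using h r (-1) r
  intro x
  induction x using MonoidAlgebra.induction_on with
  | of g =>
    intro c s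
    obtain ⟨h, rfl⟩ := redH_surjective n g
    refine ((walk_all n h 1 s).trans ((hadd c.val _ s).trans (walk_all n h⁻¹ _ _))).trans ?_
    rw [mul_assoc, ← map_mul, mul_inv_cancel, map_one, mul_one, one_mul, monU_val]
    have : c.val • (of F5 (HN n) (redH n h)) = c • (of F5 (HN n) (redH n h)) := by
      rw [← Nat.cast_smul_eq_nsmul F5, ZMod.natCast_zmod_val]
    rw [this]
  | add a b ha hb =>
    intro c s
    rw [smul_add, ← add_assoc]
    exact (ha c s).trans (hb c _)
  | smul d a ha =>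
    intro c s
    rw [smul_smul]
    exact ha _ s

/-- The generator of the deck group as a group element. -/
def hC : Heis ℤ := ⟨0, 0, -5 ^ (2 * n)⟩

theorem redH_eq_one_iff (h : Heis ℤ) :
    redH n h = 1 ↔ (5 : ℤ) ^ (4 * n) ∣ h.a ∧ (5 : ℤ) ^ (4 * n) ∣ h.b ∧ (5 : ℤ) ^ (4 * n) ∣ h.c := by
  rw [Heis.ext_iff]
  simp [redH, ZMod.intCast_zmod_eq_zero_iff_dvd]

theorem monU_eq_one_iff (h : Heis ℤ) : monU n h = 1 ↔ redH n h = 1 := by
  haveI : Fact (Nat.Prime 5) := ⟨by norm_num⟩
  rw [Units.ext_iff, monU_val, Units.val_one, ← map_one (of F5 (HN n))]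
  exact of_injective.eq_iff

theorem hC_pow (k : ℕ) : (hC n) ^ k = ⟨0, 0, (k : ℤ) * -5 ^ (2 * n)⟩ := by
  induction k with
  | zero => ext <;> simp
  | succ k ih =>
    rw [pow_succ, ih]
    ext <;> simp [hC]; ring

theorem monU_hC_pow_eq_one_iff (k : ℕ) : monU n (hC n) ^ k = 1 ↔ 5 ^ (2 * n) ∣ k := by
  rw [← map_pow, monU_eq_one_iff, redH_eq_one_iff, hC_pow]
  simp only [dvd_zero, true_and, mul_neg, dvd_neg]
  rw [show 4 * n = 2 * n + 2 * n by omega, pow_add,
    mul_dvd_mul_iff_right (by positivity : (5 : ℤ) ^ (2 * n) ≠ 0), ← Int.natCast_dvd_natCast]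
  simp

theorem commute_monU_hC (r : Rn n) : Commute (monU n (hC n) : Rn n) r := by
  induction r using MonoidAlgebra.induction_on with
  | of g =>
    rw [monU_val]
    refine Commute.map ?_ (of F5 (HN n))
    show _ = _
    ext <;> simp [redH, hC] <;> ring
  | add a b ha hb => exact ha.add_right hb
  | smul c a ha => exact ha.smul_right c

open Classical in
/-- The ring data. -/
noncomputable def ringData : RData :=
  have h := exists_chain (isPGroup_HN n) (aug (HN n)) (fun g => aug_of g)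
  { R := Rn n
    fin := Fintype.ofFinite _
    dec := Classical.decEq _
    ε := aug (HN n)
    x := monU n gX
    y := monU n gY
    len := h.choose
    len_pos := h.choose_spec.choose_spec.choose_spec.1
    I := h.choose_spec.choose
    I_zero := h.choose_spec.choose_spec.choose_spec.2.1
    I_one := h.choose_spec.choose_spec.choose_spec.2.2.1
    I_anti := h.choose_spec.choose_spec.choose_spec.2.2.2.1
    I_top := h.choose_spec.choose_spec.choose_spec.2.2.2.2.1
    j := h.choose_spec.choose_spec.choose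
    j_mem := fun i _ => h.choose_spec.choose_spec.choose_spec.2.2.2.2.2.1 i
    step := fun i _ => h.choose_spec.choose_spec.choose_spec.2.2.2.2.2.2.1 i
    mul_lt := fun i _ => h.choose_spec.choose_spec.choose_spec.2.2.2.2.2.2.2 i
    isUnit_of := fun _ hr => isUnit_of_chain h.choose_spec.choose_spec.choose_spec.2.2.1
      h.choose_spec.choose_spec.choose_spec.2.2.2.2.1
      h.choose_spec.choose_spec.choose_spec.2.2.2.2.2.2.2 hr
    reach := reach_all n
    a := monU n ⟨5 ^ n, 0, 0⟩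
    b := monU n ⟨0, 5 ^ n, 0⟩
    c₀ := monU n (hC n)
    c₀_comm := commute_monU_hC n
    ba := by
      rw [← map_mul, ← map_mul, ← map_mul]
      congr 1
      ext <;> simp [hC, two_mul, pow_add]
    ε_c₀ := by rw [monU_val]; exact aug_of _
    Q := 5 ^ (2 * n)
    c₀_pow := monU_hC_pow_eq_one_iff n }

end VP212.Alg.HR
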