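import Vale.Agent.P212.Alg.Ring.Defs

/-!
P212, ring part: the integral group algebra is a domain; elements of small support and the counting
lemma: two of them have a common left multiple with small coefficients.
-/

set_option linter.style.haveILetI false

namespace VP212.Alg.HR

open MonoidAlgebra

instance : TwoUniqueProds (Heis ℤ) := by
  letI : LinearOrder (Heis ℤ) :=
    LinearOrder.lift' (fun h => (toLex (h.a, toLex (h.b, h.c)) : ℤ ×ₗ (ℤ ×ₗ ℤ)))
      (fun g h e => by simp [Prod.ext_iff] at e; exact Heis.ext e.1 e.2.1 e.2.2)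
  haveI : MulLeftStrictMono (Heis ℤ) := ⟨fun g h k hlt => by
    change (toLex ((g * h).a, toLex ((g * h).b, (g * h).c)) : ℤ ×ₗ (ℤ ×ₗ ℤ)) <
      toLex ((g * k).a, toLex ((g * k).b, (g * k).c))
    replace hlt : (toLex (h.a, toLex (h.b, h.c)) : ℤ ×ₗ (ℤ ×ₗ ℤ)) <
      toLex (k.a, toLex (k.b, k.c)) := hlt
    simp only [Prod.Lex.toLex_lt_toLex, Heis.mul_a, Heis.mul_b, Heis.mul_c] at hlt ⊢
    rcases hlt with h1 | ⟨h1, h2 | ⟨h2, h3⟩⟩
    · exact Or.inl (by omega)
    · exact Or.inr ⟨by omega, Or.inl (by omega)⟩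
    · exact Or.inr ⟨by omega, Or.inr ⟨by omega, by rw [h2]; omega⟩⟩⟩
  exact TwoUniqueProds.of_covariant_right

theorem noZero : NoZeroDivisors RZ := by
  haveI : Fact (Nat.Prime 5) := ⟨by norm_num⟩
  infer_instance

theorem Short.zero (K : ℕ) : Short K 0 := fun h hh => by simp at hh

theorem Short.mono {K L : ℕ} (hKL : K ≤ L) {r : RZ} (hr : Short K r) : Short L r := by
  intro h hh
  obtain ⟨h1, h2, h3⟩ := hr h hh
  have hKL' : (K : ℤ) ≤ L := by exact_mod_cast hKL
  exact ⟨h1.trans hKL', h2.trans hKL', h3.trans (pow_le_pow_left₀ (by positivity) hKL' 2)⟩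

theorem Short.add {K : ℕ} {r s : RZ} (hr : Short K r) (hs : Short K s) : Short K (r + s) := by
  intro h hh
  rw [coeff_add] at hh
  rcases Finset.mem_union.1 (Finsupp.support_add hh) with h' | h'
  exacts [hr h h', hs h h']

theorem Short.neg {K : ℕ} {r : RZ} (hr : Short K r) : Short K (-r) := fun h hh => hr h (by
  simpa using hh)

theorem Short.sub {K : ℕ} {r s : RZ} (hr : Short K r) (hs : Short K s) : Short K (r - s) := by
  rw [sub_eq_add_neg]
  exact hr.add hs.neg

theorem Short.smul {K : ℕ} {r : RZ} (hr : Short K r) (c : F5) : Short K (c • r) := fun h hh =>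
  hr h (Finsupp.support_smul hh)

theorem short_monZ {K : ℕ} {g : Heis ℤ} (ha : |g.a| ≤ K) (hb : |g.b| ≤ K)
    (hc : |g.c| ≤ (K : ℤ) ^ 2) : Short K (monZ g) := by
  intro h hh
  have : h = g := Finset.mem_singleton.1 (Finsupp.support_single_subset hh)
  subst this
  exact ⟨ha, hb, hc⟩

theorem short_one (K : ℕ) : Short K 1 := by
  rw [← map_one monZ]
  exact short_monZ (by simp) (by simp) (by simp)

theorem Short.mul {K L : ℕ} {r s : RZ} (hr : Short K r) (hs : Short L s) :
    Short (K + L) (r * s) := by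
  intro h hh
  classical
  obtain ⟨u, hu, v, hv, rfl⟩ := Finset.mem_mul.1 (support_coeff_mul_subset r s hh)
  obtain ⟨a1, b1, c1⟩ := hr u hu
  obtain ⟨a2, b2, c2⟩ := hs v hv
  simp only [Heis.mul_a, Heis.mul_b, Heis.mul_c, Nat.cast_add]
  refine ⟨(abs_add_le _ _).trans (by omega), (abs_add_le _ _).trans (by omega), ?_⟩
  have h3 : |u.a * v.b| ≤ (K : ℤ) * L := by
    rw [abs_mul]
    exact mul_le_mul a1 b2 (abs_nonneg _) (by positivity)
  calc |u.c + v.c + u.a * v.b| ≤ |u.c| + |v.c| + |u.a * v.b| := abs_add_three _ _ _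
    _ ≤ ((K : ℤ) + L) ^ 2 := by nlinarith [Int.natCast_nonneg K, Int.natCast_nonneg L]

/-- The box. -/
noncomputable def box (M : ℕ) : Finset (Heis ℤ) :=
  (Finset.Icc (-(M : ℤ)) M ×ˢ (Finset.Icc (-(M : ℤ)) M ×ˢ
    Finset.Icc (-(M : ℤ) ^ 2) ((M : ℤ) ^ 2))).map Heis.equivTriple.symm.toEmbedding

theorem mem_box {M : ℕ} {h : Heis ℤ} :
    h ∈ box M ↔ |h.a| ≤ M ∧ |h.b| ≤ M ∧ |h.c| ≤ (M : ℤ) ^ 2 := by
  simp [box, Finset.mem_map_equiv, Heis.equivTriple, abs_le, and_assoc]

theorem card_box (M : ℕ) : (box M).card = (2 * M + 1) ^ 2 * (2 * M ^ 2 + 1) := by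
  simp only [box, Finset.card_map, Finset.card_product, Int.card_Icc]
  have h1 : ((M : ℤ) + 1 - -(M : ℤ)).toNat = 2 * M + 1 := by omega
  have e : (M : ℤ) ^ 2 + 1 - -(M : ℤ) ^ 2 = ((2 * M ^ 2 + 1 : ℕ) : ℤ) := by push_cast; ring
  rw [h1, e, Int.toNat_natCast]
  ring

/-- An element with given coefficients on the box. -/
noncomputable def boxEl (M : ℕ) (u : box M → F5) : RZ :=
  ∑ h : box M, single (h : Heis ℤ) (u h)

theorem short_boxEl (M : ℕ) (u : box M → F5) : Short M (boxEl M u) := by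
  classical
  refine Finset.sum_induction _ (Short M) (fun a b => Short.add) (Short.zero M) ?_
  intro h _ k hk
  have hkh : k = (h : Heis ℤ) := Finset.mem_singleton.1 (Finsupp.support_single_subset hk)
  subst hkh
  exact mem_box.1 h.2

theorem coeff_boxEl (M : ℕ) (u : box M → F5) (h : box M) : (boxEl M u).coeff h = u h := by
  classical
  simp [boxEl, coeff_sum, Finsupp.finsetSum_apply, Finsupp.single_apply]

/-- The counting lemma. -/
theorem exists_common_multiple {K : ℕ} {r t : RZ} (hr : Short K r) (ht : Short K t)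
    (hr0 : r ≠ 0) :
    ∃ f g' : RZ, g' ≠ 0 ∧ Short (10 * K + 10) f ∧ Short (10 * K + 10) g' ∧ f * r = g' * t := by
  classical
  set M := 10 * K + 10 with hM
  let F : (box M → F5) × (box M → F5) → (box (M + K) → F5) := fun p h =>
    (boxEl M p.1 * r - boxEl M p.2 * t).coeff h
  have hcard : Fintype.card (box (M + K) → F5) < Fintype.card ((box M → F5) × (box M → F5)) := by
    simp only [Fintype.card_prod, Fintype.card_fun, Fintype.card_coe, card_box, ← pow_add]
    refine Nat.pow_lt_pow_right (by simp) ?_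
    have h1 : 100 * (2 * (M + K) + 1) ^ 2 ≤ 121 * (2 * M + 1) ^ 2 := by rw [hM]; nlinarith
    have h2 : 100 * (2 * (M + K) ^ 2 + 1) ≤ 121 * (2 * M ^ 2 + 1) := by rw [hM]; nlinarith
    have h3 := Nat.mul_le_mul h1 h2
    have h4 : 0 < (2 * M + 1) ^ 2 * (2 * M ^ 2 + 1) := by positivity
    nlinarith
  obtain ⟨p, q, hne, hpq⟩ := Fintype.exists_ne_map_eq_of_card_lt F hcard
  set f := boxEl M p.1 - boxEl M q.1 with hf
  set g' := boxEl M p.2 - boxEl M q.2 with hg'
  have hfs : Short M f := (short_boxEl M _).sub (short_boxEl M _)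
  have hgs : Short M g' := (short_boxEl M _).sub (short_boxEl M _)
  have hzero : f * r - g' * t = 0 := by
    have hs : Short (M + K) (f * r - g' * t) := (hfs.mul hr).sub (hgs.mul ht)
    ext h
    by_cases hb : h ∈ box (M + K)
    · have := congrFun hpq ⟨h, hb⟩
      simp only [F, coeff_sub, Finsupp.coe_sub, Pi.sub_apply] at this
      simp only [hf, hg', sub_mul, coeff_sub, Finsupp.coe_sub, Pi.sub_apply, coeff_zero,
        Finsupp.coe_zero, Pi.zero_apply]
      linear_combination this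
    · by_contra hh
      exact hb (mem_box.2 (hs h (Finsupp.mem_support_iff.2 (by simpa using hh))))
  refine ⟨f, g', fun hg0 => hne ?_, hfs, hgs, sub_eq_zero.1 hzero⟩
  haveI := noZero
  have hf0 : f = 0 := by
    rw [hg0, zero_mul, sub_zero] at hzero
    exact (mul_eq_zero.1 hzero).resolve_right hr0
  have key : ∀ u v : box M → F5, boxEl M u - boxEl M v = 0 → u = v := fun u v h => by
    funext k
    rw [← coeff_boxEl M u k, sub_eq_zero.1 h, coeff_boxEl]
  exact Prod.ext (key _ _ hf0) (key _ _ hg0)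

end VP212.Alg.HR
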