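import Vale.Agent.P212.Alg.Ring.Dom

/-!
P212, ring part: an element of small support times a central translation by a multiple of
`5 ^ (2 n)` is only congruent to an element of small support for the trivial translation.
-/

set_option linter.style.haveILetI false

namespace VP212.Alg.HR

open MonoidAlgebra

/-- Two integers of absolute value at most `M` congruent modulo more than `2 M` agree. -/
theorem eq_of_dvd_small {u v M D : ℤ} (hu : |u| ≤ M) (hv : |v| ≤ M) (hD : 2 * M < D)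
    (hd : D ∣ u - v) : u = v := by
  have h1 : |u - v| ≤ 2 * M := (abs_sub u v).trans (by omega)
  exact sub_eq_zero.1 (Int.eq_zero_of_abs_lt_dvd hd (by omega))

theorem injOn_redH {n B : ℕ} (hB : 2 * (B : ℤ) ^ 2 < 5 ^ (2 * n)) :
    Set.InjOn (redH n) (box B : Set (Heis ℤ)) := by
  intro g hg h hh e
  obtain ⟨g1, g2, g3⟩ := mem_box.1 hg
  obtain ⟨h1, h2, h3⟩ := mem_box.1 hh
  have hB4 : 2 * (B : ℤ) ^ 2 < 5 ^ (4 * n) :=
    hB.trans_le (pow_le_pow_right₀ (by norm_num) (by omega))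
  have hsq : (B : ℤ) ≤ (B : ℤ) ^ 2 := Int.le_self_sq _
  have hd : ∀ u v : ℤ, (u : ZMod (5 ^ (4 * n))) = v → (5 : ℤ) ^ (4 * n) ∣ u - v := fun u v e => by
    have := (ZMod.intCast_eq_intCast_iff_dvd_sub v u _).1 e.symm
    simpa using this
  have ea := congrArg Heis.a e
  have eb := congrArg Heis.b e
  have ec := congrArg Heis.c e
  simp only [redH, Heis.map_apply, Int.coe_castRingHom] at ea eb ec
  exact Heis.ext (eq_of_dvd_small (g1.trans hsq) (h1.trans hsq) hB4 (hd _ _ ea))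
    (eq_of_dvd_small (g2.trans hsq) (h2.trans hsq) hB4 (hd _ _ eb))
    (eq_of_dvd_small g3 h3 hB4 (hd _ _ ec))

/-- The translation lemma. -/
theorem shift_eq_one {n B : ℕ} (hB : 2 * (B : ℤ) ^ 2 < 5 ^ (2 * n)) {g' e : RZ}
    (hg : Short B g') (he : Short B e) (hg0 : g' ≠ 0) {N : ℤ} (hN : (5 : ℤ) ^ (2 * n) ∣ N)
    (heq : toRn n g' * (monU n ⟨0, 0, N⟩ : Rn n) = toRn n e) :
    monU n ⟨0, 0, N⟩ = 1 := by
  classical
  obtain ⟨h, hh⟩ : g'.coeff.support.Nonempty :=
    Finsupp.support_nonempty_iff.2 (by simpa using hg0)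
  have hbox : (g'.coeff.support : Set (Heis ℤ)) ⊆ box B := fun k hk => mem_box.2 (hg k hk)
  have hco : (toRn n g').coeff (redH n h) = g'.coeff h :=
    Finsupp.mapDomain_apply' _ _ hbox (injOn_redH hB) (hbox hh)
  have hne : (toRn n e).coeff (redH n h * redH n ⟨0, 0, N⟩) ≠ 0 := by
    rw [← heq, monU_val, of_apply, coeff_mul_single_apply, mul_inv_cancel_right, hco, mul_one]
    exact Finsupp.mem_support_iff.1 hh
  obtain ⟨k, hk, hkr⟩ := Finset.mem_image.1
    (Finsupp.mapDomain_support (Finsupp.mem_support_iff.2 hne))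
  have ec := congrArg Heis.c hkr
  simp only [redH, Heis.map_apply, Int.coe_castRingHom, Heis.mul_c, Int.cast_zero, mul_zero,
    add_zero] at ec
  have h4 : ((5 ^ (4 * n) : ℕ) : ℤ) ∣ (h.c + N) - k.c :=
    (ZMod.intCast_eq_intCast_iff_dvd_sub k.c (h.c + N) _).1 (by simpa using ec)
  push_cast at h4
  have h2 : (5 : ℤ) ^ (2 * n) ∣ h.c - k.c := by
    have := ((pow_dvd_pow (5 : ℤ) (by omega : 2 * n ≤ 4 * n)).trans h4)
    rw [show h.c + N - k.c = (h.c - k.c) + N by ring] at this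
    exact (Int.dvd_add_left hN).1 this
  have hc : h.c = k.c := eq_of_dvd_small (hg h hh).2.2 (he k hk).2.2 hB h2
  rw [hc, show k.c + N - k.c = N by ring] at h4
  have : redH n ⟨0, 0, N⟩ = 1 := by
    ext <;> simp [redH, ZMod.intCast_zmod_eq_zero_iff_dvd, h4]
  rw [Units.ext_iff, monU_val, this, map_one, Units.val_one]

end VP212.Alg.HR
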