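import Vale.Agent.P212.Alg.Ring.Data
import Vale.Agent.P212.Alg.Ring.Shift

/-!
P212, ring part: short words fix a frame up to the deck group only for the trivial deck element.
-/

set_option linter.style.haveILetI false

namespace VP212.Alg.HR

open MonoidAlgebra

/-- The coefficient map of the letters at the top, over the integral group. -/
noncomputable def Wz (v : Coef) : RZ :=
  v 0 • (1 : RZ) + v 1 • monZ gX + v 2 • monZ gX⁻¹ + v 3 • monZ gY + v 4 • monZ gY⁻¹ +
    v 5 • (1 : RZ)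

/-- The matrix of a word. -/
noncomputable def gmat (w : List Gen) : Fin 3 → Fin 3 → RZ :=
  w.foldr (fun g M => Function.update M g.1 (fun m => M g.1 m + Wz g.2 * M (g.1 + 1) m))
    (fun i m => if i = m then 1 else 0)

theorem short_Wz (v : Coef) : Short 1 (Wz v) := by
  have hx : Short 1 (monZ gX) := short_monZ (by simp [gX]) (by simp [gX]) (by simp [gX])
  have hy : Short 1 (monZ gY) := short_monZ (by simp [gY]) (by simp [gY]) (by simp [gY])
  have hx' : Short 1 (monZ gX⁻¹) := by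
    rw [show gX⁻¹ = (⟨-1, 0, 0⟩ : Heis ℤ) from rfl]
    exact short_monZ (by simp) (by simp) (by simp)
  have hy' : Short 1 (monZ gY⁻¹) := by
    rw [show gY⁻¹ = (⟨0, -1, 0⟩ : Heis ℤ) from rfl]
    exact short_monZ (by simp) (by simp) (by simp)
  exact ((((((short_one 1).smul _).add (hx.smul _)).add (hx'.smul _)).add (hy.smul _)).add
    (hy'.smul _)).add ((short_one 1).smul _)

theorem short_gmat : ∀ (w : List Gen) (i m : Fin 3), Short w.length (gmat w i m)
  | [], i, m => by
    show Short 0 (if i = m then 1 else 0)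
    split
    exacts [short_one 0, Short.zero 0]
  | g :: w, i, m => by
    show Short (w.length + 1)
      (Function.update (gmat w) g.1 (fun m => gmat w g.1 m + Wz g.2 * gmat w (g.1 + 1) m) i m)
    have hlift : ∀ i m, Short (w.length + 1) (gmat w i m) := fun i m =>
      (short_gmat w i m).mono (Nat.le_succ _)
    rw [Function.update_apply]
    split
    · refine (hlift g.1 m).add ?_
      rw [add_comm w.length]
      exact (short_Wz g.2).mul (short_gmat w _ m)
    · exact hlift i m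

theorem toRn_smul (n : ℕ) (c : F5) (r : RZ) : toRn n (c • r) = c • toRn n r :=
  ZMod.map_smul (toRn n) c r

theorem toRn_Wz (n : ℕ) (v : Coef) : toRn n (Wz v) = (ringData n).W 1 0 v := by
  show _ = v 0 • (1 : Rn n) + v 1 • (monU n gX : Rn n) + v 2 • (((monU n gX)⁻¹ : (Rn n)ˣ) : Rn n) +
    v 3 • (monU n gY : Rn n) + v 4 • (((monU n gY)⁻¹ : (Rn n)ˣ) : Rn n) +
    v 5 • ((1 : (Rn n)ˣ) : Rn n) + v 6 • (0 : Rn n)
  simp only [Wz, map_add, toRn_smul, toRn_monZ, map_one, map_inv, smul_zero, add_zero,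
    Units.val_one]

theorem wordOp_eq (n : ℕ) : ∀ (w : List Gen) (v : Fin 3 → Fin 2 → Rn n) (i : Fin 3) (b : Fin 2),
    (ringData n).wordOp w v i b = ∑ m, toRn n (gmat w i m) * v m b
  | [], v, i, b => by
    show v i b = ∑ m, toRn n (if i = m then 1 else 0) * v m b
    simp [apply_ite (toRn n), ite_mul]
  | g :: w, v, i, b => by
    show rowOp g.1 (g.1 + 1) ((ringData n).W 1 0 g.2) ((ringData n).wordOp w v) i b =
      ∑ m, toRn n (Function.update (gmat w) g.1
        (fun m => gmat w g.1 m + Wz g.2 * gmat w (g.1 + 1) m) i m) * v m b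
    rw [rowOp, Function.update_apply, Function.update_apply]
    split
    · have h1 := wordOp_eq n w v g.1 b
      have h2 := wordOp_eq n w v (g.1 + 1) b
      simp only [map_add, map_mul, add_mul, Finset.sum_add_distrib, mul_assoc, ← Finset.mul_sum,
        ← toRn_Wz]
      exact congrArg₂ (fun a c => a + toRn n (Wz g.2) * c) h1 h2
    · exact wordOp_eq n w v i b

theorem sum_three {M : Type} [AddCommMonoid M] {k l b : Fin 3} (hkl : k ≠ l) (hkb : k ≠ b)
    (hlb : l ≠ b) (f : Fin 3 → M) : ∑ i, f i = f k + f l + f b := by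
  have e : (Finset.univ : Finset (Fin 3)) = {k, l, b} := by
    revert k l b; decide
  rw [e, Finset.sum_insert (by simp [hkl, hkb]), Finset.sum_pair hlb, add_assoc]

/-- A matrix killing a frame has two columns which are multiples of the third. -/
theorem exists_rankOne (n : ℕ) (v : Fin 3 → Fin 2 → Rn n) (hv : (ringData n).IsFrame v) :
    ∃ k l b : Fin 3, k ≠ l ∧ k ≠ b ∧ l ≠ b ∧ ∃ rk rl : Rn n, ∀ D : Fin 3 → Fin 3 → Rn n,
      (∀ i c, ∑ m, D i m * v m c = 0) → ∀ i, D i k = D i b * rk ∧ D i l = D i b * rl := by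
  haveI : Fact (Nat.Prime 5) := ⟨by norm_num⟩
  have hv' : ∀ α β : F5, (∀ i, α * aug (HN n) (v i 0) + β * aug (HN n) (v i 1) = 0) →
      α = 0 ∧ β = 0 := hv
  have hunit : ∀ r : Rn n, aug (HN n) r ≠ 0 → IsUnit r := (ringData n).isUnit_of
  obtain ⟨k, hk⟩ : ∃ k, aug (HN n) (v k 0) ≠ 0 := by
    by_contra h
    push Not at h
    exact one_ne_zero (hv' 1 0 fun i => by simp [h i]).1
  obtain ⟨uk, huk⟩ := hunit _ hk
  let q : Rn n := ((uk⁻¹ : (Rn n)ˣ) : Rn n) * v k 1
  let w : Fin 3 → Rn n := fun i => v i 1 - v i 0 * q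
  have hwk : w k = 0 := by
    simp only [w, q, ← huk, ← mul_assoc, Units.mul_inv, one_mul, sub_self]
  obtain ⟨l, hl⟩ : ∃ l, aug (HN n) (w l) ≠ 0 := by
    by_contra h
    push Not at h
    have := hv' (-aug (HN n) q) 1 fun i => by
      have hi := h i
      simp only [w, map_sub, map_mul] at hi
      linear_combination hi
    exact one_ne_zero this.2
  have hkl : k ≠ l := fun e => hl (by rw [← e, hwk, map_zero])
  obtain ⟨ul, hul⟩ := hunit _ hl
  obtain ⟨b, hkb, hlb⟩ :=
    (by decide : ∀ k l : Fin 3, ∃ b : Fin 3, k ≠ b ∧ l ≠ b) k l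
  let rl : Rn n := -(w b * ((ul⁻¹ : (Rn n)ˣ) : Rn n))
  let rk : Rn n := -((rl * v l 0 + v b 0) * ((uk⁻¹ : (Rn n)ˣ) : Rn n))
  refine ⟨k, l, b, hkl, hkb, hlb, rk, rl, fun D hD i => ?_⟩
  have hw : ∑ m, D i m * w m = 0 := by
    simp only [w, mul_sub, ← mul_assoc, Finset.sum_sub_distrib, ← Finset.sum_mul, hD, zero_mul,
      sub_zero]
  rw [sum_three hkl hkb hlb, hwk, mul_zero, zero_add, ← hul] at hw
  have h1 : D i l = D i b * rl := by
    have e : D i l = -(D i b * w b) * ((ul⁻¹ : (Rn n)ˣ) : Rn n) := by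
      rw [← eq_neg_of_add_eq_zero_left hw, mul_assoc, Units.mul_inv, mul_one]
    rw [e]
    simp only [rl, mul_neg, neg_mul, mul_assoc]
  have h0 := hD i 0
  rw [sum_three hkl hkb hlb, add_assoc, ← huk] at h0
  refine ⟨?_, h1⟩
  have e : D i k = -(D i l * v l 0 + D i b * v b 0) * ((uk⁻¹ : (Rn n)ˣ) : Rn n) := by
    rw [← eq_neg_of_add_eq_zero_left h0, mul_assoc, Units.mul_inv, mul_one]
  rw [e, h1]
  simp only [rk, mul_neg, neg_mul, mul_assoc, mul_add, add_mul]

theorem two_mul_sq_lt (B n : ℕ) (hn : 2 * B ^ 2 ≤ n) : 2 * (B : ℤ) ^ 2 < 5 ^ (2 * n) := by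
  have h : n < 5 ^ (2 * n) :=
    (Nat.lt_pow_self (by norm_num)).trans_le (Nat.pow_le_pow_right (by norm_num) (by omega))
  exact_mod_cast hn.trans_lt h

theorem loops (K n : ℕ) (hn : 2 * (11 * K + 10) ^ 2 ≤ n) : (ringData n).Loops K := by
  intro w hw (v : Fin 3 → Fin 2 → Rn n) hv j heq
  have hB := two_mul_sq_lt _ n hn
  let z : Rn n := (monU n ⟨0, 0, (j : ℤ) * -5 ^ (2 * n)⟩ : (Rn n)ˣ)
  show 5 ^ (2 * n) ∣ j
  suffices h : monU n ⟨0, 0, (j : ℤ) * -5 ^ (2 * n)⟩ = 1 by
    apply (monU_hC_pow_eq_one_iff n j).1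
    rw [← map_pow, hC_pow]
    exact h
  have hz : ∀ r : Rn n, r * z = z * r := fun r => by
    have : Commute ((monU n (hC n) : Rn n) ^ j) r := (commute_monU_hC n r).pow_left j
    simp only [z]
    rw [← hC_pow, map_pow, Units.val_pow_eq_pow_val]
    exact this.eq.symm
  let D : Fin 3 → Fin 3 → Rn n := fun i m => toRn n (gmat w i m) - if i = m then z else 0
  have hD : ∀ i c, ∑ m, D i m * v m c = 0 := fun i c => by
    have h := heq i c
    simp only [D, sub_mul, Finset.sum_sub_distrib, ite_mul, zero_mul, Finset.sum_ite_eq,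
      Finset.mem_univ, if_true]
    rw [sub_eq_zero]
    refine ((wordOp_eq n w v i c).symm.trans h).trans ?_
    show v i c * (((monU n (hC n)) ^ j : (Rn n)ˣ) : Rn n) = z * v i c
    rw [← map_pow, hC_pow]
    exact hz _
  obtain ⟨k, l, b, hkl, hkb, hlb, rk, rl, hr⟩ := exists_rankOne n v hv
  have hs : ∀ i m, Short K (gmat w i m) := fun i m => (short_gmat w i m).mono hw
  have hdiag : ∀ i, D i i = toRn n (gmat w i i) - z := fun i => by simp [D]
  have hoff : ∀ i m, i ≠ m → D i m = toRn n (gmat w i m) := fun i m h => by simp [D, h]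
  have finish : ∀ g' e, Short (11 * K + 10) g' → Short (11 * K + 10) e → g' ≠ 0 →
      toRn n g' * z = toRn n e → monU n ⟨0, 0, (j : ℤ) * -5 ^ (2 * n)⟩ = 1 :=
    fun g' e hg he hg0 h => shift_eq_one hB hg he hg0 (Dvd.intro_left _ rfl |>.trans
      (by rw [mul_neg, dvd_neg])) h
  haveI : Fact (Nat.Prime 5) := ⟨by norm_num⟩
  have easy : ∀ i r, i ≠ b → D i i = D i b * r → gmat w i b = 0 →
      monU n ⟨0, 0, (j : ℤ) * -5 ^ (2 * n)⟩ = 1 := fun i r hib h h0 => by
    refine finish 1 (gmat w i i) (short_one _) ((hs i i).mono (by omega)) one_ne_zero ?_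
    rw [hdiag, hoff i b hib, h0, map_zero, zero_mul] at h
    rw [map_one, one_mul]
    exact (sub_eq_zero.1 h).symm
  by_cases hk0 : gmat w k b = 0
  · exact easy k rk hkb (hr D hD k).1 hk0
  by_cases hl0 : gmat w l b = 0
  · exact easy l rl hlb (hr D hD l).2 hl0
  obtain ⟨f, g', hg0, hf, hg, hfg⟩ := exists_common_multiple (hs l b) (hs k b) hl0
  refine finish g' (g' * gmat w k k - f * gmat w l k) (hg.mono (by omega))
    (((hg.mul (hs k k)).mono (by omega)).sub ((hf.mul (hs l k)).mono (by omega))) hg0 ?_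
  have h := congrArg (toRn n) hfg
  rw [map_mul, map_mul, ← hoff l b hlb, ← hoff k b hkb] at h
  have h2 := congrArg (fun r => r * rk) h
  simp only [mul_assoc] at h2
  rw [← (hr D hD l).1, ← (hr D hD k).1] at h2
  rw [hoff l k hkl.symm, hdiag, mul_sub] at h2
  rw [map_sub, map_mul, map_mul, h2, sub_sub_cancel]

end VP212.Alg.HR

namespace VP212.Alg

/-- The ring part. -/
theorem ringSpec : RingSpec :=
  ⟨HR.ringData, fun _ => rfl, fun K => ⟨2 * (11 * K + 10) ^ 2, fun n hn => HR.loops K n hn⟩⟩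

end VP212.Alg
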